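import Vale.Agent.Propeller.Main
import Vale.Agent.Propeller.K4

/-!
# P226: the Gaussian propeller conjecture
-/

namespace Vale.Agent.Results.P226.Propeller

open MeasureTheory

/-- the standard Gaussian probability measure `γ_d` on `ℝᵈ`, with density
`(2π)^(-d/2) exp(-|x|²/2)` -/
noncomputable def gaussian (d : ℕ) : Measure (EuclideanSpace ℝ (Fin d)) :=
  (volume : Measure (EuclideanSpace ℝ (Fin d))).withDensity
    (fun x => ENNReal.ofReal ((2 * Real.pi) ^ (-(d : ℝ) / 2) * Real.exp (-‖x‖ ^ 2 / 2)))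

/-- the Gaussian first moment `z(A) = ∫_A x dγ_d(x)` -/
noncomputable def moment {d : ℕ} (A : Set (EuclideanSpace ℝ (Fin d))) :
    EuclideanSpace ℝ (Fin d) :=
  ∫ x in A, x ∂gaussian d

/-- `A_1, …, A_k` is a measurable partition of `ℝᵈ`, up to `γ_d`-null sets (cells may be empty) -/
structure IsPartition {d k : ℕ} (A : Fin k → Set (EuclideanSpace ℝ (Fin d))) : Prop where
  meas : ∀ i, MeasurableSet (A i)
  disj : ∀ i j, i ≠ j → gaussian d (A i ∩ A j) = 0
  cover : gaussian d (⋃ i, A i)ᶜ = 0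

/-- `F(A) = Σ_i |z(A_i)|²` -/
noncomputable def F {d k : ℕ} (A : Fin k → Set (EuclideanSpace ℝ (Fin d))) : ℝ :=
  ∑ i, ‖moment (A i)‖ ^ 2

/-- `M(d,k)`, the supremum of `F` over all partitions of `ℝᵈ` into `k` cells -/
noncomputable def M (d k : ℕ) : ℝ :=
  sSup {t : ℝ | ∃ A : Fin k → Set (EuclideanSpace ℝ (Fin d)), IsPartition A ∧ t = F A}

open Vale.Agent.Propeller in
theorem gaussian_eq (d : ℕ) : gaussian d = gs d := by
  rw [gs_eq_withDensity]
  rfl

theorem moment_eq {d : ℕ} (A : Set (EuclideanSpace ℝ (Fin d))) :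
    moment A = Vale.Agent.Propeller.moment A := by
  unfold moment Vale.Agent.Propeller.moment
  rw [gaussian_eq]

theorem F_eq {d k : ℕ} (A : Fin k → Set (EuclideanSpace ℝ (Fin d))) :
    F A = Vale.Agent.Propeller.propF A := by
  unfold F Vale.Agent.Propeller.propF
  simp only [moment_eq]

open Vale.Agent.Propeller in
/-- a partition up to null sets can be replaced by an honest one with one more cell -/
theorem exists_honest {d k : ℕ} (A : Fin k → Set (EuclideanSpace ℝ (Fin d)))
    (hA : IsPartition A) :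
    ∃ B : Fin (k + 1) → Set (EuclideanSpace ℝ (Fin d)), Vale.Agent.Propeller.IsPartition B ∧
      F A ≤ propF B := by
  classical
  set B : Fin (k + 1) → Set (EuclideanSpace ℝ (Fin d)) :=
    Fin.cons (⋃ i, A i)ᶜ (fun i => A i \ ⋃ j, ⋃ (_ : j < i), A j) with hB
  refine ⟨B, ⟨?_, ?_, ?_⟩, ?_⟩
  · intro i
    refine Fin.cases ?_ (fun i => ?_) i
    · rw [hB, Fin.cons_zero]
      exact (MeasurableSet.iUnion hA.meas).compl
    · rw [hB, Fin.cons_succ]
      exact (hA.meas i).diff (MeasurableSet.iUnion fun j => MeasurableSet.iUnion fun _ =>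
        hA.meas j)
  · have key : ∀ i j : Fin k, i < j → Disjoint (A i \ ⋃ l, ⋃ (_ : l < i), A l)
        (A j \ ⋃ l, ⋃ (_ : l < j), A l) := by
      intro i j hij
      rw [Set.disjoint_left]
      intro x hx hx'
      exact hx'.2 (Set.mem_iUnion.2 ⟨i, Set.mem_iUnion.2 ⟨hij, hx.1⟩⟩)
    have key0 : ∀ i : Fin k, Disjoint (⋃ i, A i)ᶜ (A i \ ⋃ l, ⋃ (_ : l < i), A l) := by
      intro i
      rw [Set.disjoint_left]
      intro x hx hx'
      exact hx (Set.mem_iUnion.2 ⟨i, hx'.1⟩)
    intro i j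
    refine Fin.cases ?_ (fun i => ?_) i
    · refine Fin.cases (fun h => absurd rfl h) (fun j _ => ?_) j
      rw [hB, Fin.cons_zero, Fin.cons_succ]
      exact key0 j
    · refine Fin.cases (fun _ => ?_) (fun j h => ?_) j
      · rw [hB, Fin.cons_zero, Fin.cons_succ]
        exact (key0 i).symm
      · rw [hB, Fin.cons_succ, Fin.cons_succ]
        have h' : i ≠ j := fun h' => h (by rw [h'])
        rcases lt_or_gt_of_ne h' with h1 | h1
        · exact key i j h1
        · exact (key j i h1).symm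
  · intro x
    by_cases hx : x ∈ ⋃ i, A i
    · have hne : (Finset.univ.filter fun i => x ∈ A i).Nonempty := by
        obtain ⟨i, hi⟩ := Set.mem_iUnion.1 hx
        exact ⟨i, Finset.mem_filter.2 ⟨Finset.mem_univ _, hi⟩⟩
      set i := (Finset.univ.filter fun i => x ∈ A i).min' hne with hi
      have him := Finset.min'_mem _ hne
      rw [← hi] at him
      refine ⟨i.succ, ?_⟩
      rw [hB, Fin.cons_succ]
      refine ⟨(Finset.mem_filter.1 him).2, fun h => ?_⟩
      obtain ⟨j, hj⟩ := Set.mem_iUnion.1 h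
      obtain ⟨hji, hxj⟩ := Set.mem_iUnion.1 hj
      have h2 := Finset.min'_le (Finset.univ.filter fun i => x ∈ A i) j
        (Finset.mem_filter.2 ⟨Finset.mem_univ _, hxj⟩)
      exact absurd hji (not_lt.2 h2)
    · exact ⟨0, by rw [hB, Fin.cons_zero]; exact hx⟩
  · rw [F_eq]
    unfold propF
    rw [Fin.sum_univ_succ]
    have h1 : ∀ i : Fin k, Vale.Agent.Propeller.moment (B i.succ) =
        Vale.Agent.Propeller.moment (A i) := by
      intro i
      unfold Vale.Agent.Propeller.moment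
      apply setIntegral_congr_set
      rw [hB, Fin.cons_succ, ← Set.sdiff_self_inter]
      apply sdiff_null_ae_eq_self
      rw [Set.inter_iUnion, ← gaussian_eq]
      refine measure_iUnion_null fun j => ?_
      rw [Set.inter_iUnion]
      exact measure_iUnion_null fun hj => hA.disj i j (ne_of_gt hj)
    simp only [h1]
    have := sq_nonneg ‖Vale.Agent.Propeller.moment (B 0)‖
    linarith

open Vale.Agent.Propeller in
theorem main_of (h4 : ∀ n, Bd n (Fin 4) (9 / (8 * Real.pi))) :
    (∀ (d k : ℕ) (A : Fin k → Set (EuclideanSpace ℝ (Fin d))), IsPartition A →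
      F A ≤ 9 / (8 * Real.pi)) ∧
    (∀ d k : ℕ, 2 ≤ d → 3 ≤ k → M d k = 9 / (8 * Real.pi)) := by
  have h1 : ∀ (d k : ℕ) (A : Fin k → Set (EuclideanSpace ℝ (Fin d))), IsPartition A →
      F A ≤ 9 / (8 * Real.pi) := by
    intro d k A hA
    obtain ⟨B, hB, hAB⟩ := exists_honest A hA
    exact hAB.trans (propF_le_of_four _ le_rfl h4 d (k + 1) B hB)
  refine ⟨h1, fun d k hd hk => le_antisymm ?_ ?_⟩
  · have hne : {t : ℝ | ∃ A : Fin k → Set (EuclideanSpace ℝ (Fin d)), IsPartition A ∧
        t = F A}.Nonempty := by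
      refine ⟨_, fun i => if (i : ℕ) = 0 then Set.univ else ∅, ⟨fun i => ?_, fun i j hij => ?_, ?_⟩,
        rfl⟩
      · by_cases h : (i : ℕ) = 0 <;> simp [h]
      · by_cases h : (i : ℕ) = 0
        · have h' : ¬ (j : ℕ) = 0 := fun h' => hij (Fin.ext (by rw [h, h']))
          simp [h']
        · simp [h]
      · have : (⋃ i : Fin k, if (i : ℕ) = 0 then (Set.univ : Set (EuclideanSpace ℝ (Fin d)))
            else ∅) = Set.univ := by
          refine Set.eq_univ_of_forall fun x => Set.mem_iUnion.2 ⟨⟨0, by omega⟩, by simp⟩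
        rw [this]
        simp
    refine csSup_le hne ?_
    rintro t ⟨A, hA, rfl⟩
    exact h1 d k A hA
  · refine (FinP.propeller_le_propM d k hd hk).trans ?_
    unfold propM M
    refine csSup_le_csSup ⟨9 / (8 * Real.pi), ?_⟩ ?_ ?_
    · rintro t ⟨A, hA, rfl⟩
      exact h1 d k A hA
    · refine ⟨_, fun i => if (i : ℕ) = 0 then Set.univ else ∅, ⟨fun i => ?_, fun i j hij => ?_,
        fun x => ⟨⟨0, by omega⟩, by simp⟩⟩, rfl⟩
      · by_cases h : (i : ℕ) = 0 <;> simp [h]
      · by_cases h : (i : ℕ) = 0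
        · have h' : ¬ (j : ℕ) = 0 := fun h' => hij (Fin.ext (by rw [h, h']))
          simp [h']
        · simp [h]
    · rintro t ⟨A, hA, rfl⟩
      refine ⟨A, ⟨hA.meas, fun i j hij => ?_, ?_⟩, (F_eq A).symm⟩
      · rw [(hA.disj i j hij).inter_eq, measure_empty]
      · have : (⋃ i, A i) = Set.univ :=
          Set.eq_univ_of_forall fun x => Set.mem_iUnion.2 (hA.cover x)
        rw [this, Set.compl_univ, measure_empty]

/-- **The Gaussian propeller conjecture**: every measurable partition `A_1, …, A_k` of `ℝᵈ`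
satisfies `Σ_i |∫_{A_i} x dγ_d|² ≤ 9/(8π)`, and `M(d,k) = 9/(8π)` for all `d ≥ 2`, `k ≥ 3`. -/
theorem result :
    (∀ (d k : ℕ) (A : Fin k → Set (EuclideanSpace ℝ (Fin d))), IsPartition A →
      F A ≤ 9 / (8 * Real.pi)) ∧
    (∀ d k : ℕ, 2 ≤ d → 3 ≤ k → M d k = 9 / (8 * Real.pi)) :=
  main_of Vale.Agent.Propeller.bd_four

end Vale.Agent.Results.P226.Propeller
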